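import Vale.Agent.P227.M.Defs
import Vale.Agent.P227.M.LIM.CV716

/-! # P227/M, block DUAL (hedge): from the moment map potential in `y`-space to `MM` in `x`-space

`φ` with gradient `g`, `g` with derivative `T` (symmetric, elliptic, Lipschitz) and the Jacobian
equation `exp (-φ y) = exp (-V (g y)) * |det T y|` give `MM ψ V c C M` with
`ψ x = ⟪x, h x⟫ - φ (h x)`, `h = g⁻¹`. -/

open scoped RealInnerProductSpace Topology
open Filter

namespace Vale.Agent.P227.M.DUAL575

variable {n : ℕ}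

private theorem inj575 {T : E n →L[ℝ] E n} {a : ℝ} (ha : 0 < a)
    (hlo : ∀ v : E n, a * ‖v‖ ^ 2 ≤ ⟪T v, v⟫) : Function.Injective (T : E n →ₗ[ℝ] E n) := by
  refine (injective_iff_map_eq_zero _).2 fun v hv => ?_
  have h1 := hlo v
  have h2 : T v = 0 := hv
  rw [h2, inner_zero_left] at h1
  have h3 : ‖v‖ ^ 2 ≤ 0 := by
    by_contra hcon
    push Not at hcon
    have := mul_pos ha hcon
    linarith
  have h4 : ‖v‖ = 0 := by
    have : ‖v‖ ^ 2 = 0 := le_antisymm h3 (by positivity)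
    simpa using this
  exact norm_eq_zero.1 h4

/-- the inverse of a coercive operator as a continuous linear equivalence -/
private noncomputable def eqv (T : E n →L[ℝ] E n) (h : Function.Injective (T : E n →ₗ[ℝ] E n)) :
    E n ≃L[ℝ] E n :=
  (LinearEquiv.ofInjectiveEndo (T : E n →ₗ[ℝ] E n) h).toContinuousLinearEquiv

private theorem eqv_apply (T : E n →L[ℝ] E n) (h : Function.Injective (T : E n →ₗ[ℝ] E n))
    (v : E n) : eqv T h v = T v := rfl

private theorem eqv_coe (T : E n →L[ℝ] E n) (h : Function.Injective (T : E n →ₗ[ℝ] E n)) :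
    (eqv T h : E n →L[ℝ] E n) = T := by
  ext v; rfl

/-- the data of the dual side -/
structure Inv (T S : E n →L[ℝ] E n) : Prop where
  ts : ∀ v, T (S v) = v
  st : ∀ v, S (T v) = v

private theorem norm_inv_le {T S : E n →L[ℝ] E n} (hI : Inv T S) {C : ℝ} (hC : 0 < C)
    (hlo : ∀ v : E n, C⁻¹ * ‖v‖ ^ 2 ≤ ⟪T v, v⟫) (w : E n) : ‖S w‖ ≤ C * ‖w‖ := by
  have h1 := hlo (S w)
  rw [hI.ts] at h1
  have h2 := real_inner_le_norm w (S w)
  rcases eq_or_lt_of_le (norm_nonneg (S w)) with h0 | h0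
  · rw [← h0]; positivity
  · have h3 : (C⁻¹ * ‖S w‖) * ‖S w‖ ≤ ‖w‖ * ‖S w‖ := by nlinarith
    have h4 : C⁻¹ * ‖S w‖ ≤ ‖w‖ := le_of_mul_le_mul_right h3 h0
    have h5 := mul_le_mul_of_nonneg_left h4 hC.le
    rwa [← mul_assoc, mul_inv_cancel₀ hC.ne', one_mul] at h5

private theorem lower_inv {T S : E n →L[ℝ] E n} (hI : Inv T S) {c : ℝ} (hc : 0 < c)
    (hs : ∀ v w : E n, ⟪T v, w⟫ = ⟪v, T w⟫) (hpos : ∀ v : E n, 0 ≤ ⟪T v, v⟫)
    (hup : ∀ v : E n, ⟪T v, v⟫ ≤ c⁻¹ * ‖v‖ ^ 2) (w : E n) : c * ‖w‖ ^ 2 ≤ ⟪S w, w⟫ := by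
  have key : ∀ v : E n, c * ‖T v‖ ^ 2 ≤ ⟪T v, v⟫ := by
    intro v
    have h1 := hpos (v - c • T v)
    have h2 := hup (T v)
    have h3 : ⟪T (T v), v⟫ = ‖T v‖ ^ 2 := by
      rw [hs (T v) v, real_inner_self_eq_norm_sq]
    have h4 : ⟪T v, T v⟫ = ‖T v‖ ^ 2 := real_inner_self_eq_norm_sq _
    simp only [map_sub, map_smul, inner_sub_left, inner_sub_right, inner_smul_left,
      inner_smul_right, h3, h4, RCLike.conj_to_real] at h1
    have h5 : c * (c * ⟪T (T v), T v⟫) ≤ c * ‖T v‖ ^ 2 := by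
      have h6 : c * ⟪T (T v), T v⟫ ≤ c * (c⁻¹ * ‖T v‖ ^ 2) := mul_le_mul_of_nonneg_left h2 hc.le
      rw [← mul_assoc, mul_inv_cancel₀ hc.ne', one_mul] at h6
      exact mul_le_mul_of_nonneg_left h6 hc.le
    linarith
  have h := key (S w)
  rw [hI.ts] at h
  rwa [real_inner_comm]

private theorem inner_ei (x : E n) (i : Fin n) : ⟪x, ei i⟫ = x i := by
  simp [ei, EuclideanSpace.inner_single_right]

private theorem sum_ei (v : E n) : v = ∑ i, v i • ei i := by
  have h := (EuclideanSpace.basisFun (Fin n) ℝ).sum_repr v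
  conv_lhs => rw [← h]
  simp [ei]

private theorem inner_sum575 (v w : E n) : ⟪v, w⟫ = ∑ i, v i * w i := by
  simp [PiLp.inner_apply, mul_comm]

theorem mm_of_dual {V φ : E n → ℝ} {g : E n → E n} {T : E n → E n →L[ℝ] E n} {c C M : ℝ}
    (hc : 0 < c) (hC : 0 < C) (hM : 0 ≤ M)
    (hφ : ∀ y, HasGradientAt φ (g y) y) (hg : ∀ y, HasFDerivAt g (T y) y)
    (hs : ∀ y v w, ⟪T y v, w⟫ = ⟪v, T y w⟫)
    (hlo : ∀ y v, C⁻¹ * ‖v‖ ^ 2 ≤ ⟪T y v, v⟫) (hup : ∀ y v, ⟪T y v, v⟫ ≤ c⁻¹ * ‖v‖ ^ 2)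
    (hLip : ∀ y y', ‖T y - T y'‖ ≤ M * ‖y - y'‖)
    (heven : ∀ y, φ (-y) = φ y)
    (hMA : ∀ y, Real.exp (-φ y) = Real.exp (-V (g y)) * |(T y).det|) :
    ∃ (ψ : E n → ℝ) (M' : ℝ), MM ψ V c C M' := by
  have hTc : Continuous T := by
    refine continuous_iff_continuousAt.2 fun y => ?_
    rw [ContinuousAt, tendsto_iff_norm_sub_tendsto_zero]
    have h1 : Tendsto (fun z : E n => M * ‖z - y‖) (𝓝 y) (𝓝 0) := by
      have h2 : Continuous fun z : E n => M * ‖z - y‖ := by fun_prop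
      have h3 := h2.tendsto y
      simpa using h3
    exact squeeze_zero (fun _ => norm_nonneg _) (fun z => hLip z y) h1
  have hCi : 0 < C⁻¹ := inv_pos.2 hC
  have hinj : ∀ y, Function.Injective (T y : E n →ₗ[ℝ] E n) := fun y => inj575 hCi (hlo y)
  have gi := LIM.injective716 hg hCi hlo
  have gs := (LIM.surjective716 hg hTc hCi hlo).1
  let e : E n ≃ E n := Equiv.ofBijective g ⟨gi, gs⟩
  let h : E n → E n := fun x => e.symm x
  have gh : ∀ x, g (h x) = x := fun x => e.apply_symm_apply x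
  have hgg : ∀ y, h (g y) = y := fun y => e.symm_apply_apply y
  let S : E n → E n →L[ℝ] E n := fun x => ((eqv (T (h x)) (hinj (h x))).symm : E n →L[ℝ] E n)
  have hI : ∀ x, Inv (T (h x)) (S x) := fun x =>
    ⟨fun v => (eqv (T (h x)) (hinj (h x))).apply_symm_apply v,
      fun v => (eqv (T (h x)) (hinj (h x))).symm_apply_apply v⟩
  have hhL : ∀ x x', ‖h x - h x'‖ ≤ C * ‖x - x'‖ := by
    intro x x'
    have h1 := LIM.expand716 hg hlo (h x) (h x')
    rw [gh, gh] at h1
    have h5 := mul_le_mul_of_nonneg_left h1 hC.le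
    rwa [← mul_assoc, mul_inv_cancel₀ hC.ne', one_mul] at h5
  have hhc : Continuous h := by
    refine continuous_iff_continuousAt.2 fun y => ?_
    rw [ContinuousAt, tendsto_iff_norm_sub_tendsto_zero]
    have h1 : Tendsto (fun z : E n => C * ‖z - y‖) (𝓝 y) (𝓝 0) := by
      have h2 : Continuous fun z : E n => C * ‖z - y‖ := by fun_prop
      have h3 := h2.tendsto y
      simpa using h3
    exact squeeze_zero (fun _ => norm_nonneg _) (fun z => hhL z y) h1
  have hh : ∀ x, HasFDerivAt h (S x) x := by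
    intro x
    have h1 : HasFDerivAt g (eqv (T (h x)) (hinj (h x)) : E n →L[ℝ] E n) (h x) := by
      rw [eqv_coe]; exact hg (h x)
    exact HasFDerivAt.of_local_left_inverse hhc.continuousAt h1 (Eventually.of_forall gh)
  have hSn : ∀ x w, ‖S x w‖ ≤ C * ‖w‖ := fun x w => norm_inv_le (hI x) hC (hlo (h x)) w
  have hSnorm : ∀ x, ‖S x‖ ≤ C := fun x => (S x).opNorm_le_bound hC.le (hSn x)
  have hSL : ∀ x x', ‖S x - S x'‖ ≤ C * (M * C) * C * ‖x - x'‖ := by
    intro x x'
    have h1 : S x - S x' = (S x).comp ((T (h x') - T (h x)).comp (S x')) := by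
      ext1 v
      simp only [sub_apply, ContinuousLinearMap.comp_apply, map_sub,
        (hI x').ts, (hI x).st]
    have h2 : ‖S x - S x'‖ ≤ ‖S x‖ * (‖T (h x') - T (h x)‖ * ‖S x'‖) := by
      rw [h1]
      exact (ContinuousLinearMap.opNorm_comp_le _ _).trans
        (mul_le_mul_of_nonneg_left (ContinuousLinearMap.opNorm_comp_le _ _) (norm_nonneg _))
    have h3 : ‖T (h x') - T (h x)‖ ≤ M * (C * ‖x - x'‖) := by
      refine (hLip _ _).trans (mul_le_mul_of_nonneg_left ?_ hM)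
      rw [norm_sub_rev]; exact hhL x x'
    have h4 : ‖S x‖ * (‖T (h x') - T (h x)‖ * ‖S x'‖) ≤ C * ((M * (C * ‖x - x'‖)) * C) := by
      have h5 : ‖T (h x') - T (h x)‖ * ‖S x'‖ ≤ (M * (C * ‖x - x'‖)) * C :=
        mul_le_mul h3 (hSnorm x') (norm_nonneg _) (by positivity)
      exact mul_le_mul (hSnorm x) h5 (by positivity) hC.le
    calc ‖S x - S x'‖ ≤ _ := h2
      _ ≤ _ := h4
      _ = C * (M * C) * C * ‖x - x'‖ := by ring
  have hSc : Continuous S := by
    refine continuous_iff_continuousAt.2 fun y => ?_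
    rw [ContinuousAt, tendsto_iff_norm_sub_tendsto_zero]
    have h1 : Tendsto (fun z : E n => C * (M * C) * C * ‖z - y‖) (𝓝 y) (𝓝 0) := by
      have h2 : Continuous fun z : E n => C * (M * C) * C * ‖z - y‖ := by fun_prop
      have h3 := h2.tendsto y
      simpa using h3
    exact squeeze_zero (fun _ => norm_nonneg _) (fun z => hSL z y) h1
  let ψ : E n → ℝ := fun x => ⟪x, h x⟫ - φ (h x)
  have hψ : ∀ x, HasFDerivAt ψ (innerSL ℝ (h x)) x := by
    intro x
    have h1 := (hasFDerivAt_id x).inner ℝ (hh x)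
    have h2 : HasFDerivAt (fun x => φ (h x)) _ x := ((hφ (h x)).hasFDerivAt).comp x (hh x)
    have h3 := h1.sub h2
    refine h3.congr_fderiv ?_
    ext v
    simp only [gh, sub_apply, ContinuousLinearMap.comp_apply, id_eq,
      innerSL_apply_apply, InnerProductSpace.toDual_apply_apply,
      ContinuousLinearMap.prod_apply, fderivInnerCLM_apply, ContinuousLinearMap.id_apply]
    rw [real_inner_comm v (h x)]
    ring
  have hfψ : fderiv ℝ ψ = fun x => innerSL ℝ (h x) := funext fun x => (hψ x).fderiv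
  have hpd : ∀ i x, pd i ψ x = (h x) i := by
    intro i x
    rw [pd, hfψ]
    simp only [innerSL_apply_apply]
    exact inner_ei _ _
  have hhess : ∀ x i j, hess ψ x i j = (S x (ei i)) j := by
    intro x i j
    have h1 : pd j ψ = fun x => (h x) j := funext fun x => hpd j x
    have h2 : HasFDerivAt (fun x => (h x) j)
        ((EuclideanSpace.proj j : E n →L[ℝ] ℝ).comp (S x)) x :=
      ((EuclideanSpace.proj j : E n →L[ℝ] ℝ).hasFDerivAt).comp x (hh x)
    simp only [hess, h1, pd]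
    rw [h2.fderiv]
    rfl
  have hqf : ∀ x v, qf (hess ψ x) v = ⟪S x v, v⟫ := by
    intro x v
    have h1 : S x v = ∑ i, v i • S x (ei i) := by
      conv_lhs => rw [sum_ei v]
      rw [map_sum]
      exact Finset.sum_congr rfl fun i _ => map_smul _ _ _
    rw [h1, _root_.sum_inner]
    simp only [qf, hhess]
    refine Finset.sum_congr rfl fun i _ => ?_
    rw [real_inner_smul_left, inner_sum575, Finset.mul_sum]
    exact Finset.sum_congr rfl fun j _ => by ring
  have hdet : ∀ x, (hess ψ x).det = (S x).det := by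
    intro x
    have h1 : hess ψ x = (LinearMap.toMatrix (EuclideanSpace.basisFun (Fin n) ℝ).toBasis
        (EuclideanSpace.basisFun (Fin n) ℝ).toBasis (S x : E n →ₗ[ℝ] E n)).transpose := by
      ext i j
      rw [hhess, Matrix.transpose_apply, LinearMap.toMatrix_apply]
      simp [ei]
    rw [h1, Matrix.det_transpose, LinearMap.det_toMatrix]
  have hSdet : ∀ x, (S x).det * (T (h x)).det = 1 := by
    intro x
    have h1 : ((S x : E n →ₗ[ℝ] E n).comp (T (h x) : E n →ₗ[ℝ] E n)) = LinearMap.id := by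
      ext1 v
      exact (hI x).st v
    have h2 := congrArg LinearMap.det h1
    rw [LinearMap.det_comp, LinearMap.det_id] at h2
    exact h2
  have hgodd : ∀ y, g (-y) = -g y := by
    intro y
    have h1 : HasFDerivAt (fun z => φ (-z)) _ y :=
      ((hφ (-y)).hasFDerivAt).comp y ((hasFDerivAt_id y).neg)
    have h2 : (fun z => φ (-z)) = φ := funext heven
    rw [h2] at h1
    have h3 := h1.unique (hφ y).hasFDerivAt
    have h4 : ∀ v, ⟪g (-y), -v⟫ = ⟪g y, v⟫ := by
      intro v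
      have h5 := congrArg (fun A : E n →L[ℝ] ℝ => A v) h3
      simpa [InnerProductSpace.toDual_apply_apply] using h5
    have h6 : g y = -g (-y) := by
      refine ext_inner_right ℝ fun v => ?_
      rw [← h4 v, inner_neg_left, inner_neg_right]
    rw [h6, neg_neg]
  have hhodd : ∀ x, h (-x) = -h x := by
    intro x
    apply gi
    rw [gh, hgodd, gh]
  refine ⟨ψ, C * (M * C) * C, ?_⟩
  refine ⟨hc, ?_, ?_, ?_, ?_, ?_, ?_⟩
  · have h1 : ContDiff ℝ 1 h := by
      rw [contDiff_one_iff_fderiv]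
      refine ⟨fun x => (hh x).differentiableAt, ?_⟩
      have h2 : fderiv ℝ h = S := funext fun x => (hh x).fderiv
      rw [h2]; exact hSc
    have h3 : ContDiff ℝ 1 (fderiv ℝ ψ) := by
      rw [hfψ]
      exact (innerSL ℝ : E n →L[ℝ] E n →L[ℝ] ℝ).contDiff.comp h1
    have h4 : ContDiff ℝ (1 + 1) ψ := by
      rw [contDiff_succ_iff_fderiv]
      exact ⟨fun x => (hψ x).differentiableAt, by simp, h3⟩
    exact h4
  · intro x
    simp only [ψ, hhodd, heven, inner_neg_neg]
  · intro x v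
    rw [hqf]
    exact lower_inv (hI x) hc (hs (h x))
      (fun w => le_trans (by positivity) (hlo (h x) w)) (hup (h x)) v
  · intro x v
    rw [hqf]
    calc ⟪S x v, v⟫ ≤ ‖S x v‖ * ‖v‖ := real_inner_le_norm _ _
      _ ≤ (C * ‖v‖) * ‖v‖ := mul_le_mul_of_nonneg_right (hSn x v) (norm_nonneg _)
      _ = C * ‖v‖ ^ 2 := by ring
  · intro i j x y
    rw [hhess, hhess]
    have h1 : (S x (ei i)) j - (S y (ei i)) j = ⟪(S x - S y) (ei i), ei j⟫ := by
      rw [inner_ei]; simp
    rw [h1]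
    calc |⟪(S x - S y) (ei i), ei j⟫| ≤ ‖(S x - S y) (ei i)‖ * ‖(ei j : E n)‖ :=
          abs_real_inner_le_norm _ _
      _ ≤ (‖S x - S y‖ * ‖(ei i : E n)‖) * ‖(ei j : E n)‖ :=
          mul_le_mul_of_nonneg_right ((S x - S y).le_opNorm _) (norm_nonneg _)
      _ = ‖S x - S y‖ := by simp [ei]
      _ ≤ _ := hSL x y
  · intro x
    have h1 := hMA (h x)
    rw [gh] at h1
    have hTd : |(T (h x)).det| = Real.exp (V x - φ (h x)) := by
      have h2 : Real.exp (V x - φ (h x)) = Real.exp (V x) * Real.exp (-φ (h x)) := by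
        rw [← Real.exp_add]; ring_nf
      rw [h2, h1, ← mul_assoc, ← Real.exp_add]
      simp
    have hSd : |(S x).det| = Real.exp (-(V x - φ (h x))) := by
      have h3 : |(S x).det| * |(T (h x)).det| = 1 := by rw [← abs_mul, hSdet]; simp
      rw [hTd] at h3
      rw [Real.exp_neg]
      exact eq_inv_of_mul_eq_one_left h3
    rw [hdet, ← Real.log_abs, hSd, Real.log_exp]
    have h4 : (∑ i, x i * pd i ψ x) = ⟪x, h x⟫ := by
      rw [inner_sum575]
      exact Finset.sum_congr rfl fun i _ => by rw [hpd]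
    rw [h4]
    simp only [ψ]
    ring

end Vale.Agent.P227.M.DUAL575
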