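import Mathlib

/-! # P227, moment map route: the Legendre side

From a moment potential `φ` on the `y` space with gradient `g` and Hessian `T` we build the dual potential
`ψ` on the `x` space, with gradient `h = g⁻¹` and Hessian `S = (T ∘ h)⁻¹`. -/

open MeasureTheory Set Metric Filter Topology
open scoped ENNReal NNReal

namespace Vale.Agent.P227.M.DUAL

variable {E : Type*} [NormedAddCommGroup E] [InnerProductSpace ℝ E]

theorem dual_strong_mono {G : E → E} {T : E → E →L[ℝ] E} (hG : ∀ y, HasFDerivAt G (T y) y) {a : ℝ}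
    (hT : ∀ y v, a * ‖v‖ ^ 2 ≤ inner ℝ (T y v) v) (y z : E) :
    a * ‖y - z‖ ^ 2 ≤ inner ℝ (G y - G z) (y - z) := by
  set v : E := y - z with hv
  have hγ : ∀ t : ℝ, HasDerivAt (fun t : ℝ => z + t • v) v t := fun t => by
    simpa using ((hasDerivAt_id t).smul_const v).const_add z
  have hd : ∀ t : ℝ, HasDerivAt (fun t : ℝ => inner ℝ (G (z + t • v)) v) (inner ℝ (T (z + t • v) v) v) t := fun t => by
    have h1 : HasDerivAt (fun t : ℝ => G (z + t • v)) (T (z + t • v) v) t := (hG (z + t • v)).comp_hasDerivAt t (hγ t)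
    simpa using h1.inner ℝ (hasDerivAt_const t v)
  obtain ⟨c, -, hc⟩ := exists_hasDerivAt_eq_slope (fun t : ℝ => inner ℝ (G (z + t • v)) v) _ (zero_lt_one' ℝ)
    (fun t _ => (hd t).continuousAt.continuousWithinAt) (fun t _ => hd t)
  have h2 := hT (z + c • v) v
  rw [hc] at h2
  simp only [one_smul, zero_smul, add_zero, sub_zero, div_one] at h2
  rw [← inner_sub_left] at h2
  have h3 : z + v = y := by rw [hv]; abel
  rwa [h3] at h2

theorem dual_anti {G : E → E} {T : E → E →L[ℝ] E} (hG : ∀ y, HasFDerivAt G (T y) y) {a : ℝ}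
    (hT : ∀ y v, a * ‖v‖ ^ 2 ≤ inner ℝ (T y v) v) (y z : E) : a * ‖y - z‖ ≤ ‖G y - G z‖ := by
  rcases eq_or_ne y z with rfl | hne
  · simp
  have h0 : 0 < ‖y - z‖ := norm_pos_iff.2 (sub_ne_zero.2 hne)
  have h1 := (dual_strong_mono hG hT y z).trans (real_inner_le_norm _ _)
  have h2 : (a * ‖y - z‖) * ‖y - z‖ ≤ ‖G y - G z‖ * ‖y - z‖ := by nlinarith
  exact le_of_mul_le_mul_right h2 h0

theorem dual_clm_anti {T : E →L[ℝ] E} {a : ℝ} (hT : ∀ v, a * ‖v‖ ^ 2 ≤ inner ℝ (T v) v) (v : E) :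
    a * ‖v‖ ≤ ‖T v‖ := by
  rcases eq_or_ne v 0 with rfl | hne
  · simp
  have h0 : 0 < ‖v‖ := norm_pos_iff.2 hne
  have h1 := (hT v).trans (real_inner_le_norm _ _)
  have h2 : (a * ‖v‖) * ‖v‖ ≤ ‖T v‖ * ‖v‖ := by nlinarith
  exact le_of_mul_le_mul_right h2 h0

theorem dual_symm {φ : E → ℝ} {g : E → E} {T : E → E →L[ℝ] E} [CompleteSpace E]
    (hφ : ∀ y, HasGradientAt φ (g y) y) (hg : ∀ y, HasFDerivAt g (T y) y) (y u v : E) :
    (inner ℝ (T y u) v : ℝ) = inner ℝ u (T y v) := by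
  have h1 : ∀ z, HasFDerivAt φ (innerSL ℝ (g z)) z := fun z => (hφ z).hasFDerivAt
  have h2 : HasFDerivAt (fun z => innerSL ℝ (g z)) ((innerSL ℝ : E →L[ℝ] E →L[ℝ] ℝ).comp (T y)) y :=
    (innerSL ℝ : E →L[ℝ] E →L[ℝ] ℝ).hasFDerivAt.comp y (hg y)
  have h3 := second_derivative_symmetric h1 h2 u v
  simp only [ContinuousLinearMap.comp_apply, innerSL_apply_apply] at h3
  rw [h3, real_inner_comm]

variable [FiniteDimensional ℝ E]

/-- the inverse of a coercive endomorphism -/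
theorem dual_exists_equiv {T : E →L[ℝ] E} {a : ℝ} (ha : 0 < a) (hT : ∀ v, a * ‖v‖ ^ 2 ≤ inner ℝ (T v) v) :
    ∃ e : E ≃L[ℝ] E, (e : E →L[ℝ] E) = T := by
  have hinj : Function.Injective (T : E →ₗ[ℝ] E) := by
    rw [← LinearMap.ker_eq_bot, LinearMap.ker_eq_bot']
    intro v hv
    have h1 := dual_clm_anti hT v
    have h2 : T v = 0 := hv
    rw [h2, norm_zero] at h1
    have h3 : ‖v‖ ≤ 0 := by
      by_contra h
      push Not at h
      have := mul_pos ha h
      linarith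
    exact norm_le_zero_iff.1 h3
  refine ⟨(LinearEquiv.ofInjectiveEndo (T : E →ₗ[ℝ] E) hinj).toContinuousLinearEquiv, ?_⟩
  ext v
  rfl

theorem dual_bij {G : E → E} {T : E → E →L[ℝ] E} (hG : ∀ y, HasFDerivAt G (T y) y) {a : ℝ} (ha : 0 < a)
    (hTc : Continuous T) (hT : ∀ y v, a * ‖v‖ ^ 2 ≤ inner ℝ (T y v) v) : Function.Bijective G := by
  have hanti := dual_anti hG hT
  have hc : Continuous G := continuous_iff_continuousAt.2 fun y => (hG y).continuousAt
  refine ⟨fun y z h => ?_, ?_⟩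
  · have h1 := hanti y z
    rw [h, sub_self, norm_zero] at h1
    have h2 : ‖y - z‖ ≤ 0 := by
      by_contra hh
      push Not at hh
      have := mul_pos ha hh
      linarith
    exact sub_eq_zero.1 (norm_le_zero_iff.1 h2)
  · have hopen : IsOpen (range G) := by
      rw [isOpen_iff_mem_nhds]
      rintro _ ⟨y, rfl⟩
      obtain ⟨e, he⟩ := dual_exists_equiv ha (hT y)
      have hs : HasStrictFDerivAt G (T y) y :=
        hasStrictFDerivAt_of_hasFDerivAt_of_continuousAt (Eventually.of_forall hG) hTc.continuousAt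
      rw [← he] at hs
      rw [← hs.map_nhds_eq_of_equiv]
      exact Filter.range_mem_map
    have hclosed : IsClosed (range G) := by
      refine IsSeqClosed.isClosed fun u x hu hx => ?_
      choose w hw using hu
      have hcau : CauchySeq w := by
        refine Metric.cauchySeq_iff.2 fun ε hε => ?_
        obtain ⟨N, hN⟩ := Metric.cauchySeq_iff.1 hx.cauchySeq (a * ε) (mul_pos ha hε)
        refine ⟨N, fun m hm k hk => ?_⟩
        have h1 := hN m hm k hk
        rw [dist_eq_norm, ← hw m, ← hw k] at h1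
        rw [dist_eq_norm]
        exact lt_of_mul_lt_mul_left ((hanti (w m) (w k)).trans_lt h1) ha.le
      obtain ⟨y, hy⟩ := cauchySeq_tendsto_of_complete hcau
      refine ⟨y, ?_⟩
      have h2 : Tendsto (fun n => G (w n)) atTop (𝓝 (G y)) := (hc.tendsto y).comp hy
      have h3 : (fun n => G (w n)) = u := funext hw
      rw [h3] at h2
      exact tendsto_nhds_unique h2 hx
    have hne : (range G).Nonempty := range_nonempty G
    have := IsClopen.eq_univ ⟨hclosed, hopen⟩ hne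
    exact range_eq_univ.1 this

/-- **The Legendre side.** -/
theorem exists_dual {φ : E → ℝ} {g : E → E} {T : E → E →L[ℝ] E} {a A M : ℝ} (ha : 0 < a) (hA : 0 ≤ A) (hM : 0 ≤ M)
    (hφ : ∀ y, HasGradientAt φ (g y) y) (hg : ∀ y, HasFDerivAt g (T y) y)
    (hTa : ∀ y v, a * ‖v‖ ^ 2 ≤ inner ℝ (T y v) v) (hTA : ∀ y v, inner ℝ (T y v) v ≤ A * ‖v‖ ^ 2)
    (hTM : ∀ y z, ‖T y - T z‖ ≤ M * ‖y - z‖) (hev : ∀ y, φ (-y) = φ y) :
    ∃ (ψ : E → ℝ) (h : E → E) (S : E → E →L[ℝ] E),
      (∀ y, h (g y) = y) ∧ (∀ x, g (h x) = x) ∧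
      (∀ x, HasGradientAt ψ (h x) x) ∧ (∀ x, HasFDerivAt h (S x) x) ∧
      (∀ x v, S x (T (h x) v) = v) ∧ (∀ x v, T (h x) (S x v) = v) ∧
      (∀ x u v, (inner ℝ (S x u) v : ℝ) = inner ℝ u (S x v)) ∧
      (∀ x v, A⁻¹ * ‖v‖ ^ 2 ≤ inner ℝ (S x v) v) ∧ (∀ x, ‖S x‖ ≤ a⁻¹) ∧
      (∀ x z, ‖S x - S z‖ ≤ M / a ^ 3 * ‖x - z‖) ∧ (∀ x z, ‖h x - h z‖ ≤ a⁻¹ * ‖x - z‖) ∧
      (∀ x, h (-x) = -h x) ∧ (∀ x, ψ (-x) = ψ x) ∧ (∀ x, φ (h x) = inner ℝ x (h x) - ψ x) := by
  have hTc : Continuous T := by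
    have hL : LipschitzWith (Real.toNNReal M) T := LipschitzWith.of_dist_le_mul fun y z => by
      rw [dist_eq_norm, dist_eq_norm, Real.coe_toNNReal M hM]
      exact hTM y z
    exact hL.continuous
  have hbij := dual_bij hg ha hTc hTa
  obtain ⟨h, hl, hr⟩ := Function.bijective_iff_has_inverse.1 hbij
  have hl' : ∀ y, h (g y) = y := hl
  have hr' : ∀ x, g (h x) = x := hr
  choose e he using fun y => dual_exists_equiv ha (hTa y)
  have heT : ∀ y v, e y v = T y v := fun y v => by rw [← he y]; rfl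
  have hsymmT := dual_symm hφ hg
  -- `g` is odd
  have hgodd : ∀ y, g (-y) = -g y := by
    intro y
    have h1 : HasGradientAt (fun z => φ (-z)) (-g (-y)) y := by
      have h2 : HasFDerivAt (fun z => φ (-z)) ((InnerProductSpace.toDual ℝ E (g (-y))).comp
          (-(ContinuousLinearMap.id ℝ E))) y :=
        (hφ (-y)).hasFDerivAt.comp y (hasFDerivAt_id y).neg
      rw [hasGradientAt_iff_hasFDerivAt]
      have h5 : InnerProductSpace.toDual ℝ E (-g (-y)) =
          (InnerProductSpace.toDual ℝ E (g (-y))).comp (-(ContinuousLinearMap.id ℝ E)) := by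
        ext v
        simp
      rw [h5]
      exact h2
    have h3 : (fun z => φ (-z)) = φ := funext hev
    rw [h3] at h1
    have h4 := h1.unique (hφ y)
    rw [← h4, neg_neg]
  have hhodd : ∀ x, h (-x) = -h x := fun x => by
    rw [← hl' (-h x), hgodd, hr']
  have hanti := dual_anti hg hTa
  have hhlip : ∀ x z, ‖h x - h z‖ ≤ a⁻¹ * ‖x - z‖ := fun x z => by
    have := hanti (h x) (h z)
    rw [hr', hr'] at this
    rw [inv_mul_eq_div, le_div_iff₀ ha]
    linarith
  have hhc : Continuous h := by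
    have hL : LipschitzWith (Real.toNNReal a⁻¹) h := LipschitzWith.of_dist_le_mul fun x z => by
      rw [dist_eq_norm, dist_eq_norm, Real.coe_toNNReal _ (inv_nonneg.2 ha.le)]
      exact hhlip x z
    exact hL.continuous
  let S : E → E →L[ℝ] E := fun x => ((e (h x)).symm : E →L[ℝ] E)
  have hSd : ∀ x, HasFDerivAt h (S x) x := fun x => by
    have h1 : HasFDerivAt g ((e (h x) : E ≃L[ℝ] E) : E →L[ℝ] E) (h x) := by
      rw [he]
      exact hg (h x)
    exact HasFDerivAt.of_local_left_inverse hhc.continuousAt h1 (Eventually.of_forall hr')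
  have hST : ∀ x v, S x (T (h x) v) = v := fun x v => by
    rw [← heT]
    exact (e (h x)).symm_apply_apply v
  have hTS : ∀ x v, T (h x) (S x v) = v := fun x v => by
    rw [← heT]
    exact (e (h x)).apply_symm_apply v
  have hSsymm : ∀ x u v, (inner ℝ (S x u) v : ℝ) = inner ℝ u (S x v) := fun x u v => by
    conv_lhs => rw [← hTS x v]
    rw [← hsymmT, hTS]
  have hSn : ∀ x v, a * ‖S x v‖ ≤ ‖v‖ := fun x v => by
    have := dual_clm_anti (hTa (h x)) (S x v)
    rwa [hTS] at this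
  have hSnorm : ∀ x, ‖S x‖ ≤ a⁻¹ := fun x => by
    refine ContinuousLinearMap.opNorm_le_bound _ (inv_nonneg.2 ha.le) fun v => ?_
    rw [inv_mul_eq_div, le_div_iff₀ ha]
    have := hSn x v
    linarith
  have hSlow : ∀ x v, A⁻¹ * ‖v‖ ^ 2 ≤ inner ℝ (S x v) v := fun x v => by
    -- generalized Cauchy-Schwarz for the form `T`
    rcases hA.eq_or_lt with hA0 | hApos
    · rw [← hA0, inv_zero, zero_mul]
      have h1 := hTa (h x) (S x v)
      rw [hTS, real_inner_comm] at h1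
      exact le_trans (by positivity) h1
    set w : E := S x v with hw
    have hTw : T (h x) w = v := hTS x v
    -- `‖v‖² = ⟨T w, v⟩` and `⟨T w, v⟩² ≤ ⟨T w, w⟩ ⟨T v, v⟩`
    have hpos : ∀ t : ℝ, 0 ≤ inner ℝ (T (h x) (w - t • v)) (w - t • v) := fun t =>
      le_trans (by positivity) (hTa (h x) (w - t • v))
    have hTv : inner ℝ (T (h x) v) v ≤ A * ‖v‖ ^ 2 := hTA (h x) v
    have hexp : ∀ t : ℝ, (inner ℝ (T (h x) (w - t • v)) (w - t • v) : ℝ) =
        inner ℝ w v - 2 * t * ‖v‖ ^ 2 + t ^ 2 * inner ℝ (T (h x) v) v := fun t => by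
      rw [map_sub, map_smul, hTw, inner_sub_left, inner_sub_right, inner_sub_right, inner_smul_left, inner_smul_left,
        inner_smul_right, inner_smul_right]
      have h5 : (inner ℝ (T (h x) v) w : ℝ) = ‖v‖ ^ 2 := by
        rw [hsymmT, hTw, real_inner_self_eq_norm_sq]
      rw [h5, real_inner_self_eq_norm_sq, real_inner_comm v w]
      simp
      ring
    have h6 := hpos A⁻¹
    rw [hexp] at h6
    have h7 : (A⁻¹) ^ 2 * inner ℝ (T (h x) v) v ≤ (A⁻¹) ^ 2 * (A * ‖v‖ ^ 2) :=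
      mul_le_mul_of_nonneg_left hTv (by positivity)
    have h8 : (A⁻¹) ^ 2 * (A * ‖v‖ ^ 2) = A⁻¹ * ‖v‖ ^ 2 := by
      field_simp
    rw [h8] at h7
    linarith
  have hSlip : ∀ x z, ‖S x - S z‖ ≤ M / a ^ 3 * ‖x - z‖ := fun x z => by
    refine ContinuousLinearMap.opNorm_le_bound _ (by positivity) fun v => ?_
    -- `S x v - S z v = S x (T (h z) - T (h x)) S z v`
    have h1 : (S x - S z) v = S x ((T (h z) - T (h x)) (S z v)) := by
      simp only [sub_apply, map_sub, hTS, hST]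
    rw [h1]
    have h2 : ‖S x ((T (h z) - T (h x)) (S z v))‖ ≤ a⁻¹ * ‖(T (h z) - T (h x)) (S z v)‖ := by
      rw [inv_mul_eq_div, le_div_iff₀ ha]
      have := hSn x ((T (h z) - T (h x)) (S z v))
      linarith
    have h3 : ‖(T (h z) - T (h x)) (S z v)‖ ≤ (M * (a⁻¹ * ‖x - z‖)) * (a⁻¹ * ‖v‖) := by
      refine (ContinuousLinearMap.le_opNorm _ _).trans ?_
      have h4 : ‖T (h z) - T (h x)‖ ≤ M * (a⁻¹ * ‖x - z‖) := by
        refine (hTM _ _).trans (mul_le_mul_of_nonneg_left ?_ hM)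
        rw [← norm_neg, neg_sub]
        exact hhlip x z
      have h5 : ‖S z v‖ ≤ a⁻¹ * ‖v‖ := by
        rw [inv_mul_eq_div, le_div_iff₀ ha]
        have := hSn z v
        linarith
      exact mul_le_mul h4 h5 (norm_nonneg _) (by positivity)
    calc ‖S x ((T (h z) - T (h x)) (S z v))‖ ≤ a⁻¹ * ((M * (a⁻¹ * ‖x - z‖)) * (a⁻¹ * ‖v‖)) :=
        h2.trans (mul_le_mul_of_nonneg_left h3 (by positivity))
      _ = M / a ^ 3 * ‖x - z‖ * ‖v‖ := by field_simp
  refine ⟨fun x => inner ℝ x (h x) - φ (h x), h, S, hl', hr', fun x => ?_, hSd, hST, hTS, hSsymm, hSlow, hSnorm,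
    hSlip, hhlip, hhodd, fun x => ?_, fun x => by ring⟩
  · have h1 := (hasFDerivAt_id x).inner ℝ (hSd x)
    have h2 := (hφ (h x)).hasFDerivAt.comp x (hSd x)
    have h3 := h1.sub h2
    rw [hasGradientAt_iff_hasFDerivAt]
    have h5 : InnerProductSpace.toDual ℝ E (h x) =
        ((fderivInnerCLM ℝ (id x, h x)).comp ((ContinuousLinearMap.id ℝ E).prod (S x)) -
          (InnerProductSpace.toDual ℝ E (g (h x))).comp (S x)) := by
      ext v
      simp only [InnerProductSpace.toDual_apply_apply, sub_apply, ContinuousLinearMap.comp_apply,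
        ContinuousLinearMap.prod_apply, fderivInnerCLM_apply, id, ContinuousLinearMap.id_apply, hr']
      rw [real_inner_comm v (h x)]
      ring
    rw [h5]
    exact h3
  · show (inner ℝ (-x) (h (-x)) : ℝ) - φ (h (-x)) = inner ℝ x (h x) - φ (h x)
    rw [hhodd, hev, inner_neg_neg]

end Vale.Agent.P227.M.DUAL
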