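import Vale.Agent.P227.M.Defs
import Vale.Agent.P227.M.DUAL.Leg

/-! # P227/M: from the `y`-space moment potential to the structure `MM` -/

open MeasureTheory Set Metric Filter Topology

namespace Vale.Agent.P227.M.DUAL

variable {n : ℕ}

theorem dual_inner_ei (v : E n) (i : Fin n) : (inner ℝ v (ei i) : ℝ) = v i := by
  simp [ei, EuclideanSpace.inner_single_right]

theorem dual_sum_ei (v : E n) : ∑ i, v i • (ei i : E n) = v := by
  ext j
  simp [ei, Finset.sum_apply, Pi.single_apply]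

theorem dual_pd {ψ : E n → ℝ} {h : E n → E n} (h1 : ∀ x, HasGradientAt ψ (h x) x) (i : Fin n) (x : E n) :
    pd i ψ x = h x i := by
  unfold pd
  rw [(h1 x).hasFDerivAt.fderiv, InnerProductSpace.toDual_apply_apply]
  exact dual_inner_ei _ _

theorem dual_hess {ψ : E n → ℝ} {h : E n → E n} {S : E n → E n →L[ℝ] E n} (h1 : ∀ x, HasGradientAt ψ (h x) x)
    (h2 : ∀ x, HasFDerivAt h (S x) x) (x : E n) (i j : Fin n) : hess ψ x i j = inner ℝ (S x (ei i)) (ei j) := by
  have h3 : pd j ψ = fun x => (inner ℝ (h x) (ei j) : ℝ) := by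
    funext z
    rw [dual_pd h1, dual_inner_ei]
  have h4 : HasFDerivAt (fun x => (inner ℝ (h x) (ei j) : ℝ))
      ((fderivInnerCLM ℝ (h x, ei j)).comp ((S x).prod (0 : E n →L[ℝ] E n))) x :=
    (h2 x).inner ℝ (hasFDerivAt_const (ei j) x)
  unfold hess
  rw [h3]
  unfold pd
  rw [h4.fderiv]
  simp [fderivInnerCLM_apply]

theorem dual_qf {ψ : E n → ℝ} {h : E n → E n} {S : E n → E n →L[ℝ] E n} (h1 : ∀ x, HasGradientAt ψ (h x) x)
    (h2 : ∀ x, HasFDerivAt h (S x) x) (x v : E n) : qf (hess ψ x) v = inner ℝ (S x v) v := by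
  unfold qf
  have hv : (inner ℝ (S x v) v : ℝ) = inner ℝ (S x (∑ i, v i • (ei i : E n))) (∑ j, v j • (ei j : E n)) := by
    rw [dual_sum_ei]
  rw [hv, map_sum, sum_inner]
  refine Finset.sum_congr rfl fun i _ => ?_
  rw [inner_sum]
  refine Finset.sum_congr rfl fun j _ => ?_
  rw [dual_hess h1 h2, map_smul, inner_smul_left, inner_smul_right]
  simp
  ring

theorem dual_det {ψ : E n → ℝ} {h : E n → E n} {S : E n → E n →L[ℝ] E n} (h1 : ∀ x, HasGradientAt ψ (h x) x)
    (h2 : ∀ x, HasFDerivAt h (S x) x) (x : E n) : (hess ψ x).det = (S x).det := by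
  have h3 : (LinearMap.toMatrix (EuclideanSpace.basisFun (Fin n) ℝ).toBasis
      (EuclideanSpace.basisFun (Fin n) ℝ).toBasis (S x : E n →ₗ[ℝ] E n)).transpose = hess ψ x := by
    ext i j
    rw [Matrix.transpose_apply, LinearMap.toMatrix_apply, dual_hess h1 h2, dual_inner_ei]
    simp [ei]
  rw [← h3, Matrix.det_transpose, LinearMap.det_toMatrix]

theorem dual_contDiff {ψ : E n → ℝ} {h : E n → E n} {S : E n → E n →L[ℝ] E n} (h1 : ∀ x, HasGradientAt ψ (h x) x)
    (h2 : ∀ x, HasFDerivAt h (S x) x) (h3 : Continuous S) : ContDiff ℝ 2 ψ := by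
  have h4 : ContDiff ℝ 1 h := by
    refine contDiff_one_iff_fderiv.2 ⟨fun x => (h2 x).differentiableAt, ?_⟩
    have h5 : fderiv ℝ h = S := funext fun x => (h2 x).fderiv
    rwa [h5]
  have h6 : (2 : WithTop ℕ∞) = 1 + 1 := by norm_num
  rw [h6, contDiff_succ_iff_fderiv]
  refine ⟨fun x => (h1 x).hasFDerivAt.differentiableAt, by simp, ?_⟩
  have h7 : fderiv ℝ ψ = fun x => InnerProductSpace.toDual ℝ (E n) (h x) := funext fun x => (h1 x).hasFDerivAt.fderiv
  rw [h7]
  exact (InnerProductSpace.toDual ℝ (E n)).toContinuousLinearEquiv.contDiff.comp h4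

/-- **From the moment potential `φ` to `MM`.** -/
theorem mm_of_lim {φ V : E n → ℝ} {g : E n → E n} {T : E n → E n →L[ℝ] E n} {c C M : ℝ}
    (hc : 0 < c) (hC : 0 < C) (hM : 0 ≤ M)
    (hφ : ∀ y, HasGradientAt φ (g y) y) (hg : ∀ y, HasFDerivAt g (T y) y)
    (hTa : ∀ y v, C⁻¹ * ‖v‖ ^ 2 ≤ inner ℝ (T y v) v) (hTA : ∀ y v, inner ℝ (T y v) v ≤ c⁻¹ * ‖v‖ ^ 2)
    (hTM : ∀ y z, ‖T y - T z‖ ≤ M * ‖y - z‖) (hev : ∀ y, φ (-y) = φ y)
    (hMA : ∀ y, Real.exp (-φ y) = Real.exp (-V (g y)) * |(T y).det|) :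
    ∃ (ψ : E n → ℝ) (M' : ℝ), MM ψ V c C M' ∧ (∀ y, ψ (g y) = inner ℝ (g y) y - φ y) := by
  obtain ⟨ψ, h, S, hl, hr, hψ, hh, hST, hTS, hSs, hSlow, hSn, hSlip, hhlip, hodd, hψev, hφψ⟩ :=
    exists_dual (inv_pos.2 hC) (inv_nonneg.2 hc.le) hM hφ hg hTa hTA hTM hev
  rw [inv_inv] at hSlow hSn hhlip
  have hM' : 0 ≤ M / C⁻¹ ^ 3 := by positivity
  have hSc : Continuous S := by
    have hL : LipschitzWith (Real.toNNReal (M / C⁻¹ ^ 3)) S := LipschitzWith.of_dist_le_mul fun x z => by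
      rw [dist_eq_norm, dist_eq_norm, Real.coe_toNNReal _ hM']
      exact hSlip x z
    exact hL.continuous
  refine ⟨ψ, M / C⁻¹ ^ 3, ⟨hc, dual_contDiff hψ hh hSc, hψev, fun x v => ?_, fun x v => ?_, fun i j x y => ?_,
    fun x => ?_⟩, fun y => ?_⟩
  · rw [dual_qf hψ hh]
    exact hSlow x v
  · rw [dual_qf hψ hh]
    calc (inner ℝ (S x v) v : ℝ) ≤ ‖S x v‖ * ‖v‖ := real_inner_le_norm _ _
      _ ≤ (C * ‖v‖) * ‖v‖ := by
        refine mul_le_mul_of_nonneg_right ?_ (norm_nonneg _)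
        exact (ContinuousLinearMap.le_opNorm _ _).trans (mul_le_mul_of_nonneg_right (hSn x) (norm_nonneg _))
      _ = C * ‖v‖ ^ 2 := by ring
  · rw [dual_hess hψ hh, dual_hess hψ hh, ← inner_sub_left]
    have h1 : S x (ei i) - S y (ei i) = (S x - S y) (ei i) := by rw [sub_apply]
    rw [h1]
    have hn : ∀ i : Fin n, ‖(ei i : E n)‖ = 1 := fun i => by simp [ei]
    calc |(inner ℝ ((S x - S y) (ei i)) (ei j) : ℝ)| ≤ ‖(S x - S y) (ei i)‖ * ‖(ei j : E n)‖ := abs_real_inner_le_norm _ _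
      _ ≤ (‖S x - S y‖ * ‖(ei i : E n)‖) * ‖(ei j : E n)‖ :=
        mul_le_mul_of_nonneg_right (ContinuousLinearMap.le_opNorm _ _) (norm_nonneg _)
      _ ≤ M / C⁻¹ ^ 3 * ‖x - y‖ := by
        rw [hn, hn, mul_one, mul_one]
        exact hSlip x y
  · have h1 := hMA (h x)
    rw [hr] at h1
    have h2 : (S x).det * (T (h x)).det = 1 := by
      have h3 : (S x).comp (T (h x)) = ContinuousLinearMap.id ℝ (E n) := by
        ext1 v
        exact hST x v
      have h4 : LinearMap.det ((S x : E n →ₗ[ℝ] E n) ∘ₗ (T (h x) : E n →ₗ[ℝ] E n)) = 1 := by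
        have h5 : (S x : E n →ₗ[ℝ] E n) ∘ₗ (T (h x) : E n →ₗ[ℝ] E n) = LinearMap.id := by
          ext1 v
          exact hST x v
        rw [h5, LinearMap.det_id]
      rw [LinearMap.det_comp] at h4
      exact h4
    have hS0 : (S x).det ≠ 0 := fun h0 => by
      rw [h0, zero_mul] at h2
      exact zero_ne_one h2
    have hT0 : (T (h x)).det ≠ 0 := fun h0 => by
      rw [h0, mul_zero] at h2
      exact zero_ne_one h2
    have h6 : -φ (h x) = -V x + Real.log |(T (h x)).det| := by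
      have h7 := congrArg Real.log h1
      rw [Real.log_exp, Real.log_mul (Real.exp_pos _).ne' (abs_pos.2 hT0).ne', Real.log_exp] at h7
      exact h7
    have h8 : Real.log (hess ψ x).det = -Real.log |(T (h x)).det| := by
      rw [dual_det hψ hh, Real.log_abs, ← Real.log_inv]
      congr 1
      exact eq_inv_of_mul_eq_one_left h2
    have h9 : (∑ i, x i * pd i ψ x) = inner ℝ x (h x) := by
      have h10 : (inner ℝ x (h x) : ℝ) = ∑ i, x i * h x i := by
        rw [PiLp.inner_apply]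
        exact Finset.sum_congr rfl fun i _ => by simp [mul_comm]
      rw [h10]
      exact Finset.sum_congr rfl fun i _ => by rw [dual_pd hψ]
    rw [h9, h8]
    have h11 := hφψ x
    linarith
  · have h1 := hφψ (g y)
    rw [hl] at h1
    linarith

end Vale.Agent.P227.M.DUAL
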