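import Vale.Agent.P227.M.Stmts
import Vale.Agent.P227.M.Dif.Grad

/-! # P227/M/DUAL: from the limit moment map potential (in `y`-space) to `MM ψ V c C M`.

`φ`, `g = ∇φ`, `T = D²φ` with `C⁻¹ ≤ T ≤ c⁻¹`, `T` Lipschitz, `φ` even and
`exp (-φ y) = exp (-V (g y)) det (T y)`.  Then `ψ x = ⟪x, h x⟫ - φ (h x)`, `h = g⁻¹`, satisfies `MM`. -/

noncomputable section

open MeasureTheory Set Filter Topology
open scoped RealInnerProductSpace NNReal

namespace Vale.Agent.P227.M.DUAL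

open Vale.Agent.P227.M Vale.Agent.P227.M.Dif

variable {n : ℕ}

/-- entries of the Hessian from the derivative of the gradient -/
lemma pd_of_grad {ψ : E n → ℝ} {h : E n → E n} (hψ : ∀ x, HasFDerivAt ψ (innerSL ℝ (h x)) x)
    (i : Fin n) (x : E n) : pd i ψ x = h x i := by
  rw [pd, (hψ x).fderiv, innerSL_apply_apply, ei, real_inner_comm]
  simp [EuclideanSpace.inner_single_left]

lemma hess_of_grad {ψ : E n → ℝ} {h : E n → E n} {S : E n → E n →L[ℝ] E n}
    (hψ : ∀ x, HasFDerivAt ψ (innerSL ℝ (h x)) x) (hh : ∀ x, HasFDerivAt h (S x) x)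
    (x : E n) (i j : Fin n) : hess ψ x i j = S x (ei i) j := by
  have h1 : (pd j ψ : E n → ℝ) = fun x => h x j := funext fun x => pd_of_grad hψ j x
  rw [hess, h1, pd]
  have h2 : HasFDerivAt (fun x => h x j) ((EuclideanSpace.proj j : E n →L[ℝ] ℝ).comp (S x)) x :=
    (EuclideanSpace.proj j : E n →L[ℝ] ℝ).hasFDerivAt.comp x (hh x)
  rw [h2.fderiv]
  simp

lemma sum_smul_ei (v : E n) : ∑ i, v i • (ei i : E n) = v := by
  have := (EuclideanSpace.basisFun (Fin n) ℝ).sum_repr v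
  simpa [ei] using this

lemma qf_hess_of_grad {ψ : E n → ℝ} {h : E n → E n} {S : E n → E n →L[ℝ] E n}
    (hψ : ∀ x, HasFDerivAt ψ (innerSL ℝ (h x)) x) (hh : ∀ x, HasFDerivAt h (S x) x)
    (x v : E n) : qf (hess ψ x) v = ⟪S x v, v⟫ := by
  have h1 : S x v = ∑ i, v i • S x (ei i) := by
    conv_lhs => rw [← sum_smul_ei v]
    rw [map_sum]
    simp
  rw [h1, sum_inner, qf]
  refine Finset.sum_congr rfl fun i _ => ?_
  rw [real_inner_smul_left, PiLp.inner_apply, Finset.mul_sum]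
  refine Finset.sum_congr rfl fun j _ => ?_
  rw [hess_of_grad hψ hh]
  simp
  ring

lemma det_hess_of_grad {ψ : E n → ℝ} {h : E n → E n} {S : E n → E n →L[ℝ] E n}
    (hψ : ∀ x, HasFDerivAt ψ (innerSL ℝ (h x)) x) (hh : ∀ x, HasFDerivAt h (S x) x)
    (x : E n) : (hess ψ x).det = (S x).det := by
  have hb : hess ψ x = (LinearMap.toMatrix (EuclideanSpace.basisFun (Fin n) ℝ).toBasis
      (EuclideanSpace.basisFun (Fin n) ℝ).toBasis (S x : E n →ₗ[ℝ] E n)).transpose := by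
    ext i j
    rw [hess_of_grad hψ hh, Matrix.transpose_apply, LinearMap.toMatrix_apply]
    simp [ei]
  rw [hb, Matrix.det_transpose, LinearMap.det_toMatrix]

section Dual

variable {phi : E n → ℝ} {g : E n → E n} {T : E n → E n →L[ℝ] E n} {a A : ℝ}

/-- the Legendre transform -/
def leg (hg : GMap g T a A) (phi : E n → ℝ) (x : E n) : ℝ := ⟪x, hg.inv x⟫ - phi (hg.inv x)

/-- the Hessian map of the Legendre transform -/
def SS (hg : GMap g T a A) (x : E n) : E n →L[ℝ] E n := (hg.eqv (hg.inv x)).symm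

lemma hasFDerivAt_leg (hg : GMap g T a A) (hphi : ∀ y, HasFDerivAt phi (innerSL ℝ (g y)) y)
    (x : E n) : HasFDerivAt (leg hg phi) (innerSL ℝ (hg.inv x)) x := by
  have h1 : HasFDerivAt hg.inv (SS hg x) x := hg.inv_der x
  have h2 := (hasFDerivAt_id x).inner ℝ h1
  have h3 : HasFDerivAt (fun z => phi (hg.inv z)) ((innerSL ℝ (g (hg.inv x))).comp (SS hg x)) x :=
    (hphi (hg.inv x)).comp x h1
  have h4 := h2.sub h3
  refine h4.congr_fderiv ?_
  ext w
  simp only [hg.g_inv]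
  simp [real_inner_comm]

lemma SS_T (hg : GMap g T a A) (x v : E n) : SS hg x (T (hg.inv x) v) = v :=
  hg.symm_A_apply _ _

lemma T_SS (hg : GMap g T a A) (x v : E n) : T (hg.inv x) (SS hg x v) = v :=
  hg.A_symm_apply _ _

lemma SS_norm_apply_le (hg : GMap g T a A) (x v : E n) : ‖SS hg x v‖ ≤ a⁻¹ * ‖v‖ := by
  have h1 := hg.le_norm_A_apply (hg.inv x) (SS hg x v)
  rw [T_SS] at h1
  rw [inv_mul_eq_div, le_div_iff₀ hg.pos]
  linarith

lemma SS_norm_le (hg : GMap g T a A) (x : E n) : ‖SS hg x‖ ≤ a⁻¹ :=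
  ContinuousLinearMap.opNorm_le_bound _ (inv_nonneg.2 hg.pos.le) (SS_norm_apply_le hg x)

lemma SS_lip (hg : GMap g T a A) {M : ℝ} (hM : ∀ y z, ‖T y - T z‖ ≤ M * ‖y - z‖) (x z : E n) :
    ‖SS hg x - SS hg z‖ ≤ M * (a⁻¹) ^ 3 * ‖x - z‖ := by
  have hM0 : 0 ≤ M * ‖hg.inv z - hg.inv x‖ := (norm_nonneg _).trans (hM _ _)
  have e : SS hg x - SS hg z = (SS hg x).comp ((T (hg.inv z) - T (hg.inv x)).comp (SS hg z)) := by
    ext1 v
    simp only [sub_apply, ContinuousLinearMap.comp_apply, map_sub, T_SS, SS_T]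
  rw [e]
  have ha : 0 ≤ a⁻¹ := inv_nonneg.2 hg.pos.le
  calc ‖(SS hg x).comp ((T (hg.inv z) - T (hg.inv x)).comp (SS hg z))‖
      ≤ ‖SS hg x‖ * (‖T (hg.inv z) - T (hg.inv x)‖ * ‖SS hg z‖) := by
        refine (ContinuousLinearMap.opNorm_comp_le _ _).trans ?_
        exact mul_le_mul_of_nonneg_left (ContinuousLinearMap.opNorm_comp_le _ _) (norm_nonneg _)
    _ ≤ a⁻¹ * ((M * ‖hg.inv z - hg.inv x‖) * a⁻¹) := by
        refine mul_le_mul (SS_norm_le hg x) ?_ (by positivity) ha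
        exact mul_le_mul (hM _ _) (SS_norm_le hg z) (norm_nonneg _) hM0
    _ ≤ M * (a⁻¹) ^ 3 * ‖x - z‖ := by
        by_cases hxz : x = z
        · simp [hxz]
        have hne : hg.inv z ≠ hg.inv x := fun h => hxz (by
          have := congrArg g h
          rw [hg.g_inv, hg.g_inv] at this
          exact this.symm)
        have hM1 : 0 ≤ M := by
          have hp : 0 < ‖hg.inv z - hg.inv x‖ := norm_pos_iff.2 (sub_ne_zero.2 hne)
          exact nonneg_of_mul_nonneg_left hM0 hp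
        have h5 := hg.inv_dist_le z x
        rw [norm_sub_rev z x] at h5
        have : M * ‖hg.inv z - hg.inv x‖ ≤ M * (a⁻¹ * ‖x - z‖) :=
          mul_le_mul_of_nonneg_left h5 hM1
        calc a⁻¹ * ((M * ‖hg.inv z - hg.inv x‖) * a⁻¹) ≤ a⁻¹ * ((M * (a⁻¹ * ‖x - z‖)) * a⁻¹) := by
              gcongr
          _ = M * (a⁻¹) ^ 3 * ‖x - z‖ := by ring

lemma SS_continuous (hg : GMap g T a A) {M : ℝ} (hM : ∀ y z, ‖T y - T z‖ ≤ M * ‖y - z‖) :
    Continuous (SS hg) := by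
  have : LipschitzWith (Real.toNNReal (M * (a⁻¹) ^ 3)) (SS hg) := by
    refine LipschitzWith.of_dist_le_mul fun x z => ?_
    rw [dist_eq_norm, dist_eq_norm]
    exact (SS_lip hg hM x z).trans
      (mul_le_mul_of_nonneg_right (Real.le_coe_toNNReal _) (norm_nonneg _))
  exact this.continuous

lemma SS_upper (hg : GMap g T a A) (x v : E n) : ⟪SS hg x v, v⟫ ≤ a⁻¹ * ‖v‖ ^ 2 := by
  have h1 := real_inner_le_norm (SS hg x v) v
  have h2 := SS_norm_apply_le hg x v
  nlinarith [norm_nonneg v]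

lemma SS_lower (hg : GMap g T a A) (hA : 0 < A) (x v : E n) : A⁻¹ * ‖v‖ ^ 2 ≤ ⟪SS hg x v, v⟫ := by
  set w := SS hg x v with hw
  have hv : T (hg.inv x) w = v := T_SS hg x v
  rw [← hv]
  set y := hg.inv x
  have hcs := GMap.cs_op (hg.symm y) (hg.nonneg_form y) w (T y w)
  rw [real_inner_self_eq_norm_sq] at hcs
  have hup := hg.upper y (T y w)
  have hnn := hg.nonneg_form y w
  rw [real_inner_comm (T y w) w]
  by_cases h0 : ‖T y w‖ ^ 2 = 0
  · rw [h0]; simpa using hnn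
  · have hp : 0 < ‖T y w‖ ^ 2 := lt_of_le_of_ne (by positivity) (Ne.symm h0)
    have h3 : (‖T y w‖ ^ 2) * (‖T y w‖ ^ 2) ≤ (⟪T y w, w⟫ * A) * ‖T y w‖ ^ 2 := by
      calc (‖T y w‖ ^ 2) * (‖T y w‖ ^ 2) = (‖T y w‖ ^ 2) ^ 2 := by ring
        _ ≤ ⟪T y w, w⟫ * ⟪T y (T y w), T y w⟫ := hcs
        _ ≤ ⟪T y w, w⟫ * (A * ‖T y w‖ ^ 2) := mul_le_mul_of_nonneg_left hup hnn
        _ = _ := by ring
    have h4 := le_of_mul_le_mul_right h3 hp
    rw [inv_mul_eq_div, div_le_iff₀ hA]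
    exact h4

lemma contDiff_leg (hg : GMap g T a A) (hphi : ∀ y, HasFDerivAt phi (innerSL ℝ (g y)) y)
    {M : ℝ} (hM : ∀ y z, ‖T y - T z‖ ≤ M * ‖y - z‖) : ContDiff ℝ 2 (leg hg phi) := by
  have hinv : ContDiff ℝ 1 hg.inv := by
    rw [contDiff_one_iff_fderiv]
    refine ⟨fun x => (hg.inv_der x).differentiableAt, ?_⟩
    have : fderiv ℝ hg.inv = SS hg := funext fun x => (hg.inv_der x).fderiv
    rw [this]
    exact SS_continuous hg hM
  have h2 : (2 : WithTop ℕ∞) = ((1 : ℕ) : WithTop ℕ∞) + 1 := by norm_num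
  rw [h2, contDiff_succ_iff_hasFDerivAt]
  refine ⟨fun x => innerSL ℝ (hg.inv x), ?_, fun x => hasFDerivAt_leg hg hphi x⟩
  have h3 : ContDiff ℝ ((1 : ℕ) : WithTop ℕ∞) hg.inv := by simpa using hinv
  exact (innerSL ℝ : E n →L[ℝ] E n →L[ℝ] ℝ).contDiff.comp h3

lemma grad_odd (hphi : ∀ y, HasFDerivAt phi (innerSL ℝ (g y)) y) (hev : ∀ y, phi (-y) = phi y)
    (y : E n) : g (-y) = - g y := by
  have h1 : HasFDerivAt (fun z => phi (-z)) ((innerSL ℝ (g (-y))).comp
      (-ContinuousLinearMap.id ℝ (E n))) y := (hphi (-y)).comp y (hasFDerivAt_id y).neg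
  have h2 : (fun z => phi (-z)) = phi := funext hev
  rw [h2] at h1
  have h3 := h1.unique (hphi y)
  refine ext_inner_right ℝ fun w => ?_
  have h4 := congrArg (fun L => L w) h3
  simp at h4
  rw [inner_neg_left]
  linarith

lemma inv_odd (hg : GMap g T a A) (hphi : ∀ y, HasFDerivAt phi (innerSL ℝ (g y)) y)
    (hev : ∀ y, phi (-y) = phi y) (x : E n) : hg.inv (-x) = - hg.inv x := by
  apply hg.injective
  rw [hg.g_inv, grad_odd hphi hev, hg.g_inv]

lemma det_SS (hg : GMap g T a A) (x : E n) : (SS hg x).det = ((T (hg.inv x)).det)⁻¹ := by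
  have h1 : (SS hg x).comp (T (hg.inv x)) = ContinuousLinearMap.id ℝ (E n) := by
    ext1 v
    simp [SS_T]
  have h2 : (SS hg x).det * (T (hg.inv x)).det = 1 := by
    have h3 : ((SS hg x : E n →ₗ[ℝ] E n) ∘ₗ (T (hg.inv x) : E n →ₗ[ℝ] E n)) = LinearMap.id := by
      ext1 v
      simp [SS_T]
    have h4 := congrArg LinearMap.det h3
    rw [LinearMap.det_comp, LinearMap.det_id] at h4
    exact h4
  exact eq_inv_of_mul_eq_one_left h2

/-- **From the limit potential to `MM`.** -/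
theorem mm_of_limit {V : E n → ℝ} {M : ℝ} (hg : GMap g T a A) (hA : 0 < A)
    (hphi : ∀ y, HasFDerivAt phi (innerSL ℝ (g y)) y) (hev : ∀ y, phi (-y) = phi y)
    (hM : ∀ y z, ‖T y - T z‖ ≤ M * ‖y - z‖)
    (hma : ∀ y, Real.exp (-phi y) = Real.exp (-V (g y)) * (T y).det) :
    MM (leg hg phi) V A⁻¹ a⁻¹ (M * (a⁻¹) ^ 3) where
  c_pos := inv_pos.2 hA
  C2 := contDiff_leg hg hphi hM
  even := fun x => by
    rw [leg, leg, inv_odd hg hphi hev, hev, inner_neg_neg]
  lower := fun x v => by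
    rw [qf_hess_of_grad (hasFDerivAt_leg hg hphi) (S := SS hg) hg.inv_der]
    exact SS_lower hg hA x v
  upper := fun x v => by
    rw [qf_hess_of_grad (hasFDerivAt_leg hg hphi) (S := SS hg) hg.inv_der]
    exact SS_upper hg x v
  lip := fun i j x y => by
    rw [hess_of_grad (hasFDerivAt_leg hg hphi) (S := SS hg) hg.inv_der,
      hess_of_grad (hasFDerivAt_leg hg hphi) (S := SS hg) hg.inv_der]
    have h1 : SS hg x (ei i) j - SS hg y (ei i) j = ((SS hg x - SS hg y) (ei i)) j := by simp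
    rw [h1]
    have h2 : |((SS hg x - SS hg y) (ei i)) j| ≤ ‖(SS hg x - SS hg y) (ei i)‖ := by
      have := PiLp.norm_apply_le ((SS hg x - SS hg y) (ei i)) j
      simpa using this
    have h3 : ‖(SS hg x - SS hg y) (ei i)‖ ≤ ‖SS hg x - SS hg y‖ * 1 := by
      have := (SS hg x - SS hg y).le_opNorm (ei i)
      simpa [ei] using this
    have h4 := SS_lip hg hM x y
    linarith
  ma := fun x => by
    have hd := hg.det_pos (hg.inv x)
    rw [det_hess_of_grad (hasFDerivAt_leg hg hphi) (S := SS hg) hg.inv_der, det_SS, Real.log_inv]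
    have h1 : ∑ i, x i * pd i (leg hg phi) x = ⟪x, hg.inv x⟫ := by
      rw [PiLp.inner_apply]
      refine Finset.sum_congr rfl fun i _ => ?_
      rw [pd_of_grad (hasFDerivAt_leg hg hphi)]
      simp
      ring
    rw [h1, leg]
    have h2 := hma (hg.inv x)
    rw [hg.g_inv] at h2
    have h3 := congrArg Real.log h2
    rw [Real.log_exp, Real.log_mul (Real.exp_ne_zero _) hd.ne', Real.log_exp] at h3
    linarith

/-- The same in the constants of `StmtMM`. -/
theorem mm_of_limit' {V : E n → ℝ} {c C M : ℝ} (hc : 0 < c) (hg : GMap g T C⁻¹ c⁻¹)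
    (hphi : ∀ y, HasFDerivAt phi (innerSL ℝ (g y)) y) (hev : ∀ y, phi (-y) = phi y)
    (hM : ∀ y z, ‖T y - T z‖ ≤ M * ‖y - z‖)
    (hma : ∀ y, Real.exp (-phi y) = Real.exp (-V (g y)) * (T y).det) :
    ∃ (ψ : E n → ℝ) (M' : ℝ), MM ψ V c C M' := by
  have h := mm_of_limit (V := V) hg (inv_pos.2 hc) hphi hev hM hma
  rw [inv_inv, inv_inv] at h
  exact ⟨_, _, h⟩

/-- Limit data with `HasGradientAt`, `|det|` and operator-norm bounds (the output form of block LIM). -/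
theorem mm_of_limit_grad {V : E n → ℝ} {c C M : ℝ} (hc : 0 < c) (hC : 0 < C)
    (hphi : ∀ y, HasGradientAt phi (g y) y) (hT : ∀ y, HasFDerivAt g (T y) y)
    (hlow : ∀ y v, C⁻¹ * ‖v‖ ^ 2 ≤ ⟪T y v, v⟫) (hup : ∀ y v, ⟪T y v, v⟫ ≤ c⁻¹ * ‖v‖ ^ 2)
    (hsym : ∀ y v w, ⟪T y v, w⟫ = ⟪v, T y w⟫)
    (hM : ∀ y z, ‖T y - T z‖ ≤ M * ‖y - z‖) (hev : ∀ y, phi (-y) = phi y)
    (hma : ∀ y, Real.exp (-phi y) = Real.exp (-V (g y)) * |(T y).det|) :
    ∃ (ψ : E n → ℝ) (M' : ℝ), MM ψ V c C M' := by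
  have hcont : Continuous T := by
    have : LipschitzWith (Real.toNNReal M) T := by
      refine LipschitzWith.of_dist_le_mul fun x z => ?_
      rw [dist_eq_norm, dist_eq_norm]
      exact (hM x z).trans (mul_le_mul_of_nonneg_right (Real.le_coe_toNNReal _) (norm_nonneg _))
    exact this.continuous
  have hg : GMap g T C⁻¹ c⁻¹ :=
    { pos := inv_pos.2 hC, der := hT, cont := hcont, lower := hlow, upper := hup, symm := hsym }
  refine mm_of_limit' (V := V) (M := M) (phi := phi) hc hg (fun y => ?_) hev hM (fun y => ?_)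
  · have := (hphi y).hasFDerivAt
    exact this
  · rw [hma y, abs_of_pos (hg.det_pos y)]

end Dual

end Vale.Agent.P227.M.DUAL
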